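import Vale.Agent.P080C1.Props
import Vale.Agent.P080C1.Transform

/-!
The approximate gradient norms do not exceed the gradient norm of the limit.
-/

noncomputable section

open MeasureTheory Filter Topology Set Metric
open scoped RealInnerProductSpace ContDiff

namespace Vale.Agent.P080C1.GradUpper

/-- Local vanishing of the measures of a sequence of sets gives global vanishing. -/
theorem tendsto_of_local {X : Type*} [TopologicalSpace X] [SecondCountableTopology X]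
    [MeasurableSpace X] [OpensMeasurableSpace X] {μ : Measure X} {O S : Set X} (hO : IsOpen O)
    (hfin : μ O ≠ ⊤) {f : ℕ → Set X} (hfO : ∀ n, f n ⊆ O)
    (h : ∀ y ∈ S, ∃ N : Set X, IsOpen N ∧ y ∈ N ∧
      Tendsto (fun n => μ.real (f n ∩ N)) atTop (𝓝 0)) :
    Tendsto (fun n => μ.real (f n ∩ S)) atTop (𝓝 0) := by
  choose! N hNo hyN hNt using h
  obtain ⟨T, hTc, hTe⟩ := TopologicalSpace.isOpen_iUnion_countable (fun y : S => N y)
    (fun y => hNo y y.2)
  rcases T.eq_empty_or_nonempty with hT | hT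
  · have : S = ∅ := eq_empty_iff_forall_notMem.2 fun y hy => by
      have : y ∈ ⋃ z : S, N z := mem_iUnion.2 ⟨⟨y, hy⟩, hyN y hy⟩
      rw [← hTe, hT] at this
      simp at this
    simp [this]
  obtain ⟨e, he⟩ := hTc.exists_eq_range hT
  set U : ℕ → Set X := fun k => ⋃ i ∈ Finset.range k, N (e i) ∩ O with hU
  set G : Set X := (⋃ k, U k) with hG
  have hUo : ∀ k, IsOpen (U k) := fun k =>
    isOpen_biUnion fun i _ => (hNo _ (e i).2).inter hO
  have hUsub : ∀ k, U k ⊆ O := fun k => iUnion₂_subset fun i _ => inter_subset_right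
  have hUm : Monotone U := fun a b hab => biUnion_mono
    (fun i hi => Finset.range_subset_range.2 hab hi) fun i _ => subset_rfl
  have hlim : Tendsto (fun k => μ.real (U k)) atTop (𝓝 (μ.real G)) :=
    (ENNReal.tendsto_toReal (ne_top_of_le_ne_top hfin
      (measure_mono (iUnion_subset hUsub)))).comp (tendsto_measure_iUnion_atTop hUm)
  have hfS : ∀ n, f n ∩ S ⊆ G := fun n y hy => by
    have : y ∈ ⋃ z : S, N z := mem_iUnion.2 ⟨⟨y, hy.2⟩, hyN y hy.2⟩
    rw [← hTe, he] at this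
    simp only [mem_range, iUnion_exists, iUnion_iUnion_eq', mem_iUnion] at this
    obtain ⟨i, hi⟩ := this
    exact mem_iUnion.2 ⟨i + 1, mem_iUnion₂.2 ⟨i, Finset.self_mem_range_succ i, hi, hfO n hy.1⟩⟩
  rw [Metric.tendsto_atTop]
  intro ε hε
  obtain ⟨k, hk⟩ := ((tendsto_order.1 hlim).1 (μ.real G - ε / 2) (by linarith)).exists
  have hsum : Tendsto (fun n => ∑ i ∈ Finset.range k, μ.real (f n ∩ N (e i))) atTop (𝓝 0) := by
    simpa using tendsto_finsetSum (Finset.range k) fun i _ => hNt _ (e i).2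
  obtain ⟨n₀, hn₀⟩ := Metric.tendsto_atTop.1 hsum (ε / 2) (by positivity)
  refine ⟨n₀, fun n hn => ?_⟩
  have hlt := hn₀ n hn
  rw [Real.dist_eq, sub_zero, abs_of_nonneg (Finset.sum_nonneg fun _ _ => measureReal_nonneg)]
    at hlt
  rw [Real.dist_eq, sub_zero, abs_of_nonneg measureReal_nonneg]
  have hGO : G ⊆ O := iUnion_subset hUsub
  have hGfin : μ G ≠ ⊤ := ne_top_of_le_ne_top hfin (measure_mono hGO)
  have h1 : f n ∩ S ⊆ (⋃ i ∈ Finset.range k, f n ∩ N (e i)) ∪ (G \ U k) := fun y hy => by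
    by_cases hyU : y ∈ U k
    · obtain ⟨i, hi, hy'⟩ := mem_iUnion₂.1 hyU
      exact Or.inl (mem_iUnion₂.2 ⟨i, hi, hy.1, hy'.1⟩)
    · exact Or.inr ⟨hfS n hy, hyU⟩
  have hbig : (⋃ i ∈ Finset.range k, f n ∩ N (e i)) ∪ (G \ U k) ⊆ O :=
    union_subset (iUnion₂_subset fun i _ => inter_subset_left.trans (hfO n))
      (sdiff_subset.trans hGO)
  have h2 : μ.real (G \ U k) = μ.real G - μ.real (U k) :=
    measureReal_sdiff (subset_iUnion U k) (hUo k).measurableSet hGfin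
  calc μ.real (f n ∩ S)
      ≤ μ.real ((⋃ i ∈ Finset.range k, f n ∩ N (e i)) ∪ (G \ U k)) :=
        measureReal_mono h1 (ne_top_of_le_ne_top hfin (measure_mono hbig))
    _ ≤ μ.real (⋃ i ∈ Finset.range k, f n ∩ N (e i)) + μ.real (G \ U k) :=
        measureReal_union_le _ _
    _ ≤ (∑ i ∈ Finset.range k, μ.real (f n ∩ N (e i))) + μ.real (G \ U k) :=
        add_le_add_left (measureReal_biUnion_finset_le _ _) _
    _ < ε := by rw [h2]; linarith

theorem le_qval {p : E3} {t : ℝ} (ht : t ≤ 1) (hp : qval p ≤ t) : ‖p‖ ≤ 1 + max t 0 := by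
  have hw : |p 2| ≤ ‖p‖ := by
    rw [← Real.norm_eq_abs]
    exact PiLp.norm_apply_le p 2
  rw [abs_le] at hw
  unfold qval at hp
  by_contra hc
  rw [not_le] at hc
  have := le_max_left t 0
  have := le_max_right t 0
  rcases le_or_gt ‖p‖ 4 with h | h
  · nlinarith [mul_nonneg (sub_nonneg.2 hw.2) (by linarith : (0 : ℝ) ≤ 8 - p 2 - ‖p‖),
      norm_nonneg p]
  · nlinarith [sq_nonneg (p 2 - 4)]

theorem mem_cyl₀_iff {y : E3} {R ρ : ℝ} :
    y ∈ cyl₀ R ρ ↔ |y 2| ≤ R ∧ ‖y‖ ^ 2 - y 2 ^ 2 ≤ ρ ^ 2 := by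
  have e1 : ⟪ee 2, y⟫ = y 2 := by simp [ee, EuclideanSpace.inner_single_left]
  have e2 : ‖ee 2‖ = 1 := by simp [ee]
  simp [cyl₀, cyl, e1, e2]

theorem norm_le_of_mem_cyl₀ {y : E3} {R ρ : ℝ} (hρ : 0 ≤ ρ) (h : y ∈ cyl₀ R ρ) :
    ‖y‖ ≤ R + ρ := by
  obtain ⟨h1, h2⟩ := mem_cyl₀_iff.1 h
  have hR : 0 ≤ R := (abs_nonneg _).trans h1
  have : y 2 ^ 2 ≤ R ^ 2 := by rw [← sq_abs (y 2)]; exact pow_le_pow_left₀ (abs_nonneg _) h1 2
  nlinarith [norm_nonneg y]

theorem mem_cyl₀_of_norm {y : E3} {R ρ : ℝ} (h1 : ‖y‖ ≤ R) (h2 : ‖y‖ ≤ ρ) : y ∈ cyl₀ R ρ := by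
  have hw : |y 2| ≤ ‖y‖ := by
    rw [← Real.norm_eq_abs]
    exact PiLp.norm_apply_le y 2
  exact mem_cyl₀_iff.2 ⟨hw.trans h1, by nlinarith [norm_nonneg y, sq_nonneg (y 2)]⟩

theorem continuousOn_gnorm {O : Set E3} (hO : IsOpen O) {g : E3 → ℝ}
    (hg : ContDiffOn ℝ ∞ g O) : ContinuousOn (gnorm g) O :=
  (hg.continuousOn_fderiv_of_isOpen hO (by simp)).norm.congr
    fun x _ => gnorm_eq_norm_fderiv g x

/-- Near a point of differentiability with nonzero gradient of norm `s`, the measure of the set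
where the approximate gradient norm exceeds any number above `s` tends to zero. -/
theorem local_bound (hQ : QLemmaProp) {O : Set E3} {u : E3 → ℝ} {v : ℕ → E3 → ℝ} {κ : ℕ → ℝ}
    (h : IsApprox O u v κ) {y : E3} (hy : y ∈ O) (hd : DifferentiableAt ℝ u y) {c : ℝ}
    (hs : 0 < ‖fderiv ℝ u y‖) (hc : ‖fderiv ℝ u y‖ < c) :
    ∃ N : Set E3, IsOpen N ∧ y ∈ N ∧ N ⊆ O ∧
      Tendsto (fun n => volume.real {x | x ∈ N ∧ c < gnorm (v n) x}) atTop (𝓝 0) := by
  obtain ⟨L₀, hL₀, hQ⟩ := hQ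
  obtain ⟨C, ε₀, hC, hε₀, hQ⟩ := hQ L₀ le_rfl
  set s := ‖fderiv ℝ u y‖ with hsdef
  set ε := min ε₀ (min (1 / C) ((c - s) / (s * C))) with hεdef
  have hε : 0 < ε := lt_min hε₀ (lt_min (by positivity) (div_pos (sub_pos.2 hc) (mul_pos hs hC)))
  have hεC : C * ε ≤ 1 := by
    have : ε ≤ 1 / C := (min_le_right _ _).trans (min_le_left _ _)
    calc C * ε ≤ C * (1 / C) := mul_le_mul_of_nonneg_left this hC.le
      _ = 1 := by field_simp
  have hεs : s * (1 + C * ε) ≤ c := by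
    have : ε ≤ (c - s) / (s * C) := (min_le_right _ _).trans (min_le_right _ _)
    rw [le_div_iff₀ (mul_pos hs hC)] at this
    nlinarith
  set ρ := L₀ * √ε with hρdef
  have hρ : 0 < ρ := mul_pos hL₀ (Real.sqrt_pos.2 hε)
  set g := gradient u y with hg
  have hgn : ‖g‖ = s := by simp [hg, hsdef, gradient]
  have hgs : ‖s⁻¹ • g‖ = 1 := by
    rw [norm_smul, hgn, Real.norm_eq_abs, abs_inv, abs_of_pos hs, inv_mul_cancel₀ hs.ne']
  obtain ⟨A, hA⟩ := exists_rotation hgs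
  set K := 1 + ρ with hK
  have hK0 : 0 < K := by positivity
  have hev := hd.hasFDerivAt.isLittleO.def (show 0 < ε * s / K by positivity)
  obtain ⟨r, hr, hball⟩ := Metric.eventually_nhds_iff_ball.1 (hev.and (h.isOpen.mem_nhds hy))
  set R := r / (2 * K) with hR
  have hR0 : 0 < R := by positivity
  have hRr : ∀ z : E3, ‖z‖ ≤ K → simMap y R A z ∈ ball y r := fun z hz => by
    rw [mem_ball, dist_eq_norm, simMap, add_sub_cancel_left, norm_smul, A.norm_map,
      Real.norm_eq_abs, abs_of_pos hR0]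
    calc R * ‖z‖ ≤ R * K := mul_le_mul_of_nonneg_left hz hR0.le
      _ = r / 2 := by rw [hR]; field_simp
      _ < r := by linarith
  have hcylK : ∀ z ∈ cyl₀ 1 ρ, ‖z‖ ≤ K := fun z hz => norm_le_of_mem_cyl₀ hρ.le hz
  have hsub : cyl₀ 1 ρ ⊆ simMap y R A ⁻¹' O := fun z hz => (hball _ (hRr z (hcylK z hz))).2
  have hflat : FlatOn (simFun y R A (u y) s u) (cyl₀ 1 ρ) (ee 2) ε := by
    refine ⟨0, fun z hz => ?_⟩
    have h1 := (hball _ (hRr z (hcylK z hz))).1
    have e : fderiv ℝ u y (R • A z) = s * R * ⟪ee 2, z⟫ := by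
      rw [map_smul, ← inner_gradient_left, smul_eq_mul]
      have : g = s • A (ee 2) := by rw [hA, smul_smul, mul_inv_cancel₀ hs.ne', one_smul]
      rw [← hg, this, real_inner_smul_left, A.inner_map_map]
      ring
    simp only [simMap, add_sub_cancel_left, norm_smul, A.norm_map, Real.norm_eq_abs,
      abs_of_pos hR0, e] at h1
    have hsR : 0 < s * R := mul_pos hs hR0
    rw [zero_add, simFun_apply, simMap,
      show (s * R)⁻¹ * (u (y + R • A z) - u y) - ⟪ee 2, z⟫ =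
        (s * R)⁻¹ * (u (y + R • A z) - u y - s * R * ⟪ee 2, z⟫) by field_simp,
      abs_mul, abs_of_pos (inv_pos.2 hsR), inv_mul_le_iff₀ hsR]
    refine h1.trans ?_
    calc ε * s / K * (R * ‖z‖) ≤ ε * s / K * (R * K) :=
          mul_le_mul_of_nonneg_left (mul_le_mul_of_nonneg_left (hcylK z hz) hR0.le) (by positivity)
      _ = s * R * ε := by field_simp
  have hlim := hQ _ _ _ _ ε (h.simFun hR0 hs y A (u y)) hε (min_le_left _ _) hsub hflat
  set t := 3 / 4 * min 1 ρ with ht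
  have ht0 : 0 < t := by positivity
  have htK : t ≤ K := by
    have := min_le_right (1 : ℝ) ρ
    rw [ht, hK]; linarith
  refine ⟨ball y (R * t) ∩ O, isOpen_ball.inter h.isOpen, ⟨mem_ball_self (by positivity), hy⟩,
    inter_subset_right, ?_⟩
  have hlim' := hlim.const_mul (R ^ 3)
  rw [mul_zero] at hlim'
  refine squeeze_zero (fun n => measureReal_nonneg) (fun n => ?_) hlim'
  set F := {x | x ∈ ball y (R * t) ∩ O ∧ c < gnorm (v n) x} with hF
  set G := {z | z ∈ cyl₀ (3 / 4) (3 / 4 * (L₀ * √ε)) ∧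
    C * ε < qfun (simFun y R A (u y) s (v n)) z} with hG
  have hFo : IsOpen F := by
    have := (continuousOn_gnorm h.isOpen (h.smooth n)).isOpen_inter_preimage h.isOpen
      (isOpen_Ioi (a := c))
    have e : F = ball y (R * t) ∩ (O ∩ gnorm (v n) ⁻¹' Ioi c) := by
      ext x
      simp [hF, and_assoc]
    rw [e]
    exact isOpen_ball.inter this
  have hvolF : volume.real (simMap y R A ⁻¹' F) = (R ^ 3)⁻¹ * volume.real F := by
    simpa using setIntegral_comp_simMap (x₀ := y) (A := A) hR0 hFo.measurableSet fun _ => (1 : ℝ)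
  have hFG : simMap y R A ⁻¹' F ⊆ G := fun z hz => by
    obtain ⟨⟨hz1, hz2⟩, hz3⟩ := hz
    rw [mem_ball, dist_eq_norm, simMap, add_sub_cancel_left, norm_smul, A.norm_map,
      Real.norm_eq_abs, abs_of_pos hR0] at hz1
    have hzt : ‖z‖ < t := lt_of_mul_lt_mul_left hz1 hR0.le
    have hm1 := min_le_left (1 : ℝ) ρ
    have hm2 := min_le_right (1 : ℝ) ρ
    refine ⟨mem_cyl₀_of_norm (by rw [ht] at hzt; linarith) (by rw [ht] at hzt; linarith), ?_⟩
    by_contra hq
    have hle := le_qval hεC (not_lt.1 hq)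
    have hdv : DifferentiableAt ℝ (v n) (simMap y R A z) :=
      ((h.smooth n).contDiffAt (h.isOpen.mem_nhds hz2)).differentiableAt (by simp)
    rw [← gnorm_eq_norm, gnorm_simFun hR0.ne' hs hdv, max_eq_left (by positivity),
      div_le_iff₀ hs] at hle
    linarith
  have hGfin : volume G ≠ ⊤ := by
    refine ne_top_of_le_ne_top (measure_closedBall_lt_top (x := (0 : E3)) (r := K)).ne
      (measure_mono fun z hz => ?_)
    rw [mem_closedBall, dist_zero_right]
    have := norm_le_of_mem_cyl₀ (by positivity) hz.1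
    rw [hK, hρdef]
    nlinarith
  have := measureReal_mono hFG hGfin
  rw [hvolF, inv_mul_le_iff₀ (by positivity)] at this
  exact this

/-- The gradient upper bound follows from the local one-sided estimate. -/
theorem gradUpper (hQ : QLemmaProp) : GradUpperProp := by
  intro O u v κ δ h hδ
  obtain ⟨B, hB⟩ := h.grad_bound
  set k₀ := ⌊|B| / (δ / 2)⌋₊ + 1 with hk₀
  set S : ℕ → Set E3 := fun k => {y | y ∈ O ∧ DifferentiableAt ℝ u y ∧ δ ≤ ‖fderiv ℝ u y‖ ∧
    (k : ℝ) * (δ / 2) ≤ ‖fderiv ℝ u y‖ ∧ ‖fderiv ℝ u y‖ < (k + 1) * (δ / 2)} with hS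
  set f : ℕ → ℕ → Set E3 := fun k n => {x | x ∈ O ∧ (k : ℝ) * (δ / 2) + δ < gnorm (v n) x}
    with hf
  have hfin : volume O ≠ ⊤ := h.bounded.measure_lt_top.ne
  have hloc : ∀ k, Tendsto (fun n => volume.real (f k n ∩ S k)) atTop (𝓝 0) := fun k => by
    refine tendsto_of_local h.isOpen hfin (fun n x hx => hx.1) fun y hy => ?_
    obtain ⟨hyO, hyd, hyδ, -, hyk⟩ := hy
    obtain ⟨N, hN, hyN, hNO, hNt⟩ := local_bound hQ h hyO hyd (hδ.trans_le hyδ)
      (c := (k : ℝ) * (δ / 2) + δ) (by linarith)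
    refine ⟨N, hN, hyN, squeeze_zero (fun n => measureReal_nonneg)
      (fun n => ?_) hNt⟩
    refine measureReal_mono (fun x hx => ⟨hx.2, hx.1.2⟩) ?_
    exact ne_top_of_le_ne_top hfin (measure_mono fun x hx => hNO hx.1)
  have hsum : Tendsto (fun n => ∑ k ∈ Finset.range k₀, volume.real (f k n ∩ S k)) atTop (𝓝 0) := by
    simpa using tendsto_finsetSum (Finset.range k₀) fun k _ => hloc k
  refine squeeze_zero (fun n => measureReal_nonneg) (fun n => ?_) hsum
  refine le_trans (measureReal_mono ?_ ?_) (measureReal_biUnion_finset_le _ _)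
  · rintro x ⟨hxO, hxd, hxδ, hxb⟩
    have hx0 : (0 : ℝ) ≤ ‖fderiv ℝ u x‖ / (δ / 2) := by positivity
    set k := ⌊‖fderiv ℝ u x‖ / (δ / 2)⌋₊ with hk
    have h1 : (k : ℝ) * (δ / 2) ≤ ‖fderiv ℝ u x‖ := by
      rw [← le_div_iff₀ (by positivity)]; exact Nat.floor_le hx0
    have h2 : ‖fderiv ℝ u x‖ < (k + 1) * (δ / 2) := by
      rw [← div_lt_iff₀ (by positivity)]; exact Nat.lt_floor_add_one _
    refine mem_iUnion₂.2 ⟨k, Finset.mem_range.2 ?_, ⟨hxO, by linarith⟩, hxO, hxd, hxδ, h1, h2⟩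
    rw [hk₀, Nat.lt_add_one_iff]
    refine Nat.floor_le_floor (div_le_div_of_nonneg_right ?_ (by positivity))
    linarith [hB n x hxO, le_abs_self B]
  · exact ne_top_of_le_ne_top hfin
      (measure_mono (iUnion₂_subset fun k _ x hx => hx.1.1))

end Vale.Agent.P080C1.GradUpper
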